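import Vale.Agent.P261.H89.Win

/-!
# P261: growth of the homotopy groups

If `X ⊗ V(n) = 0` and a window of homotopy groups of `X` is finitely generated, then the dimension
of `π_t X / p` is at most `C (1 + |t|) ^ (n - 1)`.
-/

open CategoryTheory MonoidalCategory Limits Pretriangulated

universe v u

set_option linter.unusedSectionVars false

namespace Vale.Agent.P261.H89

open Vale.Agent.P251 Vale.Agent.P251.T Vale.Agent.P251.M Vale.Agent.P251.S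
open Vale.Agent.P251.M.EvenSpheres Vale.Agent.P257.H314

/-- `1 + |t|` -/
def ab (t : ℤ) : ℕ := 1 + t.natAbs

lemma growth_aux {A x y k e f : ℕ} (hA : 1 ≤ A) (h : x + 1 ≤ y) (he : e ≤ A ^ (x ^ (k + 1)))
    (hf : f ≤ A ^ (y ^ k)) : e * f ≤ A ^ (y ^ (k + 1)) := by
  calc e * f ≤ A ^ (x ^ (k + 1)) * A ^ (y ^ k) := Nat.mul_le_mul he hf
    _ = A ^ (x ^ (k + 1) + y ^ k) := (pow_add _ _ _).symm
    _ ≤ A ^ (y ^ (k + 1)) := by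
        refine Nat.pow_le_pow_right hA ?_
        have h1 : x ^ k ≤ y ^ k := Nat.pow_le_pow_left (by omega) k
        calc x ^ (k + 1) + y ^ k = x ^ k * x + y ^ k := by rw [pow_succ]
          _ ≤ y ^ k * x + y ^ k := by
              have := Nat.mul_le_mul_right x h1
              omega
          _ = y ^ k * (x + 1) := by ring
          _ ≤ y ^ k * y := Nat.mul_le_mul_left _ h
          _ = y ^ (k + 1) := (pow_succ _ _).symm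

lemma growth_step {a b : ℤ → ℕ} {d : ℤ} (hd : 1 ≤ d) {B k : ℕ} (hb : ∀ t, b t ≤ B ^ (ab t ^ k))
    (h1 : ∀ t, a t ≤ a (t - d) * b t) (h2 : ∀ t, a (t - d) ≤ a t * b (t + 1)) :
    ∃ A : ℕ, ∀ t, a t ≤ A ^ (ab t ^ (k + 1)) := by
  set A0 : ℕ := ∑ t ∈ Finset.Ioo (-d) d, a t with hA0
  refine ⟨1 + B + A0, ?_⟩
  have hA : 1 ≤ 1 + B + A0 := by omega
  have hb' : ∀ t y, ab t ≤ y → b t ≤ (1 + B + A0) ^ (y ^ k) := by
    intro t y hy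
    calc b t ≤ B ^ (ab t ^ k) := hb t
      _ ≤ (1 + B + A0) ^ (ab t ^ k) := Nat.pow_le_pow_left (by omega) _
      _ ≤ (1 + B + A0) ^ (y ^ k) := Nat.pow_le_pow_right hA (Nat.pow_le_pow_left hy k)
  have key : ∀ (N : ℕ) (t : ℤ), t.natAbs = N → a t ≤ (1 + B + A0) ^ (ab t ^ (k + 1)) := by
    intro N
    induction N using Nat.strong_induction_on with
    | _ N ih =>
      intro t ht
      rcases lt_or_ge t d with h3 | h3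
      · rcases lt_or_ge (-d) t with h4 | h4
        · have h5 : a t ≤ A0 :=
            Finset.single_le_sum (f := a) (fun _ _ => Nat.zero_le _) (Finset.mem_Ioo.2 ⟨h4, h3⟩)
          calc a t ≤ (1 + B + A0) ^ 1 := by rw [pow_one]; omega
            _ ≤ (1 + B + A0) ^ (ab t ^ (k + 1)) := Nat.pow_le_pow_right hA
                (Nat.one_le_pow _ _ (by unfold ab; omega))
        · have h5 : a t ≤ a (t + d) * b (t + d + 1) := by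
            have := h2 (t + d)
            rwa [add_sub_cancel_right] at this
          refine h5.trans (growth_aux hA (x := ab (t + d)) ?_ (ih _ ?_ _ rfl) (hb' _ _ ?_))
          · unfold ab; omega
          · omega
          · unfold ab; omega
      · refine (h1 t).trans (growth_aux hA (x := ab (t - d)) ?_ (ih _ ?_ _ rfl) (hb' _ _ le_rfl))
        · unfold ab; omega
        · omega
  exact fun t => key _ t rfl

lemma card_mid {A B C : Type*} [AddCommGroup A] [AddCommGroup B] [AddCommGroup C] [Finite A]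
    [Finite C] (f : A →+ B) (g : B →+ C) (h : ∀ b, g b = 0 → ∃ a, f a = b) :
    Nat.card B ≤ Nat.card A * Nat.card C := by
  have h1 : ∀ b : B, ∃ a : A, f a = b - Function.invFun g (g b) := by
    intro b
    apply h
    have h2 : g (Function.invFun g (g b)) = g b := Function.invFun_eq ⟨b, rfl⟩
    rw [map_sub, h2, sub_self]
  choose a ha using h1
  rw [← Nat.card_prod]
  refine Nat.card_le_card_of_injective (fun b => (a b, g b)) ?_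
  intro b b' hbb
  have h2 : a b = a b' := congrArg Prod.fst hbb
  have h3 : g b = g b' := congrArg Prod.snd hbb
  have h4 := ha b
  have h5 := ha b'
  rw [h2, h5, h3] at h4
  exact (sub_left_injective h4).symm

variable {T : Type u} [Category.{v} T] [Preadditive T] [HasZeroObject T]
    [HasShift T ℤ] [∀ n : ℤ, (shiftFunctor T n).Additive] [Pretriangulated T]
    [MonoidalCategory T] [SymmetricCategory T] [TensorTriangulated T]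

lemma card_sh (W Y : T) {t m t' : ℤ} (h : t' + m = t) :
    Nat.card (W⟦t⟧ ⟶ Y⟦m⟧) = Nat.card (W⟦t'⟧ ⟶ Y) :=
  (Nat.card_congr (Equiv.ofBijective _ (sh_bij W Y h))).symm

lemma card_iso (W : T) {Y Z : T} (e : Y ≅ Z) : Nat.card (W ⟶ Y) = Nat.card (W ⟶ Z) :=
  Nat.card_congr (Equiv.mk (fun g => g ≫ e.hom) (fun g => g ≫ e.inv) (fun g => by simp)
    (fun g => by simp))

lemma card_mid_of_tri {A B C : T} {f : A ⟶ B} {g : B ⟶ C} {δ : C ⟶ A⟦(1 : ℤ)⟧}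
    (hΔ : Triangle.mk f g δ ∈ distTriang T) (X : T) (t : ℤ)
    (h1 : Finite ((𝟙_ T)⟦t⟧ ⟶ X ⊗ A)) (h2 : Finite ((𝟙_ T)⟦t⟧ ⟶ X ⊗ C)) :
    Nat.card ((𝟙_ T)⟦t⟧ ⟶ X ⊗ B) ≤
      Nat.card ((𝟙_ T)⟦t⟧ ⟶ X ⊗ A) * Nat.card ((𝟙_ T)⟦t⟧ ⟶ X ⊗ C) := by
  have hX := TensorTriangulated.distinguished X _ hΔ
  refine card_mid (post _ (X ◁ f)) (post _ (X ◁ g)) ?_
  intro b hb
  obtain ⟨a, ha⟩ := Triangle.coyoneda_exact₂ _ hX b hb
  exact ⟨a, ha.symm⟩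

lemma card_left_of_tri {A B C : T} {f : A ⟶ B} {g : B ⟶ C} {δ : C ⟶ A⟦(1 : ℤ)⟧}
    (hΔ : Triangle.mk f g δ ∈ distTriang T) (X : T) (t : ℤ)
    (h1 : Finite ((𝟙_ T)⟦t⟧ ⟶ X ⊗ B)) (h2 : Finite ((𝟙_ T)⟦t + 1⟧ ⟶ X ⊗ C)) :
    Nat.card ((𝟙_ T)⟦t⟧ ⟶ X ⊗ A) ≤
      Nat.card ((𝟙_ T)⟦t⟧ ⟶ X ⊗ B) * Nat.card ((𝟙_ T)⟦t + 1⟧ ⟶ X ⊗ C) := by
  have hX := TensorTriangulated.distinguished X _ hΔ
  set δ' : X ⊗ C ⟶ (X ⊗ A)⟦(1 : ℤ)⟧ := ((X ◁ δ) ≫ (X ◁ (TensorTriangulated.e A).inv) ≫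
        (α_ X A ((𝟙_ T)⟦(1 : ℤ)⟧)).inv ≫ (TensorTriangulated.e (X ⊗ A)).hom) with hδ'
  have h3 : Finite ((𝟙_ T)⟦t + 1⟧ ⟶ (X ⊗ B)⟦(1 : ℤ)⟧) := (fin_sh_iff _ _ rfl).2 h1
  rw [← card_sh (𝟙_ T) (X ⊗ A) (show t + 1 = t + 1 from rfl),
    ← card_sh (𝟙_ T) (X ⊗ B) (show t + 1 = t + 1 from rfl), mul_comm]
  refine card_mid (post _ δ') (post _ ((X ◁ f)⟦(1 : ℤ)⟧')) ?_
  intro b hb
  obtain ⟨a, ha⟩ := Triangle.coyoneda_exact₁ _ hX b hb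
  exact ⟨a, ha.symm⟩

/-- from `X ⊗ S/p` to `X` -/
lemma card_modp {C : T} {p : ℕ} {i : 𝟙_ T ⟶ C} {δ : C ⟶ (𝟙_ T)⟦(1 : ℤ)⟧}
    (hΔ : Triangle.mk ((p : ℤ) • 𝟙 (𝟙_ T)) i δ ∈ distTriang T) (X : T) (t : ℤ)
    (h1 : Finite ((𝟙_ T)⟦t⟧ ⟶ X ⊗ C)) :
    Nat.card (((𝟙_ T)⟦t⟧ ⟶ X) ⧸
      (zsmulAddGroupHom (p : ℤ) : ((𝟙_ T)⟦t⟧ ⟶ X) →+ ((𝟙_ T)⟦t⟧ ⟶ X)).range) ≤
      Nat.card ((𝟙_ T)⟦t⟧ ⟶ X ⊗ C) := by
  have hX := TensorTriangulated.distinguished X _ hΔ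
  have hp : X ◁ ((p : ℤ) • 𝟙 (𝟙_ T)) = (p : ℤ) • 𝟙 (X ⊗ 𝟙_ T) := by
    have h1 : ((tensorLeft X).map ((p : ℤ) • 𝟙 (𝟙_ T))) = (p : ℤ) • (tensorLeft X).map (𝟙 (𝟙_ T)) :=
      Functor.map_zsmul _
    simpa using h1
  let f := post ((𝟙_ T)⟦t⟧) ((ρ_ X).inv ≫ (X ◁ i))
  have hle : f.ker ≤
      (zsmulAddGroupHom (p : ℤ) : ((𝟙_ T)⟦t⟧ ⟶ X) →+ ((𝟙_ T)⟦t⟧ ⟶ X)).range := by
    intro a ha
    have ha' : (a ≫ (ρ_ X).inv) ≫ (X ◁ i) = 0 := by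
      rw [Category.assoc]
      exact ha
    obtain ⟨(b : (𝟙_ T)⟦t⟧ ⟶ X ⊗ 𝟙_ T), hb⟩ :=
      Triangle.coyoneda_exact₂ _ hX (a ≫ (ρ_ X).inv) ha'
    refine ⟨b ≫ (ρ_ X).hom, ?_⟩
    have h2 : a ≫ (ρ_ X).inv = b ≫ (X ◁ ((p : ℤ) • 𝟙 (𝟙_ T))) := hb
    rw [hp, Preadditive.comp_zsmul, Category.comp_id] at h2
    change (p : ℤ) • (b ≫ (ρ_ X).hom) = a
    rw [← Preadditive.zsmul_comp, ← h2, Category.assoc, Iso.inv_hom_id, Category.comp_id]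
  have e := QuotientAddGroup.quotientKerEquivRange f
  have hfin : Finite (((𝟙_ T)⟦t⟧ ⟶ X) ⧸ f.ker) := Finite.of_equiv _ e.symm.toEquiv
  calc _ ≤ Nat.card (((𝟙_ T)⟦t⟧ ⟶ X) ⧸ f.ker) :=
        Nat.card_le_card_of_surjective (QuotientAddGroup.map f.ker
          (zsmulAddGroupHom (p : ℤ) : ((𝟙_ T)⟦t⟧ ⟶ X) →+ ((𝟙_ T)⟦t⟧ ⟶ X)).range
          (AddMonoidHom.id _) hle) (by
            rintro ⟨a⟩
            exact ⟨(a : ((𝟙_ T)⟦t⟧ ⟶ X) ⧸ f.ker), rfl⟩)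
    _ = Nat.card f.range := Nat.card_congr e.toEquiv
    _ ≤ Nat.card ((𝟙_ T)⟦t⟧ ⟶ X ⊗ C) :=
        Nat.card_le_card_of_injective (fun x : f.range => x.1) Subtype.val_injective

variable [HasCoproducts.{0} T] {D : I.MUData T}

lemma card_tw (N : ℤ) (X V : T) (t : ℤ) :
    Nat.card ((𝟙_ T)⟦t⟧ ⟶ X ⊗ ((stdEven T).S N ⊗ V)) = Nat.card ((𝟙_ T)⟦t - 2 * N⟧ ⟶ X ⊗ V) := by
  rw [card_iso _ (twI N X V), card_sh _ _ (show (t - 2 * N) + 2 * N = t by ring)]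

/-- finiteness in all degrees one step down -/
theorem fin_down {p h : ℕ} {V : T} {i : 𝟙_ T ⟶ V} (hV : STow D p h i) {X : T} {a b : ℤ}
    (h0 : ∀ t : ℤ, a ≤ t → t ≤ b → Cok p ((𝟙_ T)⟦t⟧ ⟶ X) ∧ Ker p ((𝟙_ T)⟦t⟧ ⟶ X)) (hp : 2 ≤ p)
    (hlen : a + s p (h + 1) ≤ b + 2) {V' : T} {f : (stdEven T).S ((p ^ h : ℤ) - 1) ⊗ V ⟶ V}
    {j : V ⟶ V'} {δ : V' ⟶ ((stdEven T).S ((p ^ h : ℤ) - 1) ⊗ V)⟦(1 : ℤ)⟧}
    (hΔ : Triangle.mk f j δ ∈ distTriang T) (hall : ∀ t : ℤ, Finite ((𝟙_ T)⟦t⟧ ⟶ X ⊗ V')) :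
    (1 : ℤ) ≤ 2 * ((p : ℤ) ^ h - 1) ∧ ∀ t : ℤ, Finite ((𝟙_ T)⟦t⟧ ⟶ X ⊗ V) := by
  have hh : 1 ≤ h := by
    cases hV <;> omega
  have hp1 : (2 : ℤ) ≤ (p : ℤ) ^ h := by
    calc (2 : ℤ) ≤ (p : ℤ) := by exact_mod_cast hp
      _ = (p : ℤ) ^ 1 := (pow_one _).symm
      _ ≤ (p : ℤ) ^ h := pow_le_pow_right₀ (by exact_mod_cast (by omega : 1 ≤ p)) hh
  rw [s_succ] at hlen
  have hwin := down_le hV X a b h0 (by omega)
  refine ⟨by omega, all_of_window (P := fun t => Finite ((𝟙_ T)⟦t⟧ ⟶ X ⊗ V))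
    (d := 2 * ((p : ℤ) ^ h - 1)) (a := a + s p h) (by omega) ?_ ?_ ?_⟩
  · intro t ht
    exact fin_mid_of_tri hΔ X t ((fin_tw_iff _ X V t).2 ht) (hall t)
  · intro t ht
    exact (fin_tw_iff _ X V t).1 (fin_left_of_tri hΔ X t ht (hall (t + 1)))
  · intro t h1 h2
    exact hwin t h1 (by omega)

/-- the size of `π_t X / p` -/
noncomputable abbrev cokCard (p : ℕ) (X : T) (t : ℤ) : ℕ := Nat.card (((𝟙_ T)⟦t⟧ ⟶ X) ⧸
  (zsmulAddGroupHom (p : ℤ) : ((𝟙_ T)⟦t⟧ ⟶ X) →+ ((𝟙_ T)⟦t⟧ ⟶ X)).range)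

theorem growth_up {p h : ℕ} {V : T} {i : 𝟙_ T ⟶ V} (hV : STow D p h i) (X : T) (a b : ℤ)
    (h0 : ∀ t : ℤ, a ≤ t → t ≤ b → Cok p ((𝟙_ T)⟦t⟧ ⟶ X) ∧ Ker p ((𝟙_ T)⟦t⟧ ⟶ X)) (hp : 2 ≤ p)
    (hlen : a + s p h ≤ b + 2) (hall : ∀ t : ℤ, Finite ((𝟙_ T)⟦t⟧ ⟶ X ⊗ V)) (k B : ℕ)
    (hB : ∀ t : ℤ, Nat.card ((𝟙_ T)⟦t⟧ ⟶ X ⊗ V) ≤ B ^ (ab t ^ k)) :
    ∃ A : ℕ, ∀ t : ℤ, cokCard p X t ≤ A ^ (ab t ^ (k + (h - 1))) := by
  induction hV generalizing k B with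
  | one hC => exact ⟨B, fun t => (card_modp hC X t (hall t)).trans (hB t)⟩
  | @succ h V V' i H x hx f hf j δ hΔ ih =>
    obtain ⟨hd, hfin⟩ := fin_down H h0 hp hlen hΔ hall
    have hh : 1 ≤ h := by
      cases H <;> omega
    have hp1 : (1 : ℤ) ≤ (p : ℤ) ^ h := one_le_pow₀ (by exact_mod_cast (by omega : 1 ≤ p))
    obtain ⟨A, hA⟩ := growth_step (a := fun t => Nat.card ((𝟙_ T)⟦t⟧ ⟶ X ⊗ V))
      (b := fun t => Nat.card ((𝟙_ T)⟦t⟧ ⟶ X ⊗ V')) hd hB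
      (fun t => by
        have := card_mid_of_tri hΔ X t ((fin_tw_iff _ X V t).2 (hfin _)) (hall t)
        rwa [card_tw] at this)
      (fun t => by
        have := card_left_of_tri hΔ X t (hfin t) (hall (t + 1))
        rwa [card_tw] at this)
    rw [s_succ] at hlen
    have := ih (by omega) hfin (k + 1) A hA
    rwa [show k + 1 + (h - 1) = k + (h + 1 - 1) by omega] at this

/-- the bounded step -/
lemma bounded_step {a : ℤ → ℕ} {d : ℤ} (hd : 1 ≤ d) (h1 : ∀ t, a t ≤ a (t - d))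
    (h2 : ∀ t, a (t - d) ≤ a t) : ∃ B : ℕ, ∀ t, a t ≤ B := by
  refine ⟨∑ t ∈ Finset.Ico 0 d, a t, all_of_window (a := 0) hd
    (P := fun t => a t ≤ ∑ t ∈ Finset.Ico 0 d, a t) (fun t ht => (h1 t).trans ht)
    (fun t ht => (h2 t).trans ht) ?_⟩
  intro t h3 h4
  exact Finset.single_le_sum (f := a) (fun _ _ => Nat.zero_le _) (Finset.mem_Ico.2 ⟨h3, by omega⟩)

/-- **Growth**: if `X ⊗ V(n) = 0` and a window of `π_* X` is finitely generated, then `π_t X / p`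
has at most `A ^ ((1 + |t|) ^ (n - 1))` elements. -/
theorem growth {p n : ℕ} (hn : 1 ≤ n) {V : T} {i : 𝟙_ T ⟶ V} (hV : STow D p (n + 1) i) (X : T)
    (a b : ℤ) (h0 : ∀ t : ℤ, a ≤ t → t ≤ b → Cok p ((𝟙_ T)⟦t⟧ ⟶ X) ∧ Ker p ((𝟙_ T)⟦t⟧ ⟶ X))
    (hp : 2 ≤ p) (hlen : a + s p (n + 1) ≤ b + 2) (hV0 : IsZero (X ⊗ V)) :
    ∃ A : ℕ, ∀ t : ℤ, cokCard p X t ≤ A ^ (ab t ^ (n - 1)) := by
  have hsub : ∀ t : ℤ, Subsingleton ((𝟙_ T)⟦t⟧ ⟶ X ⊗ V) := fun t =>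
    ⟨fun _ _ => hV0.eq_of_tgt _ _⟩
  have hall : ∀ t : ℤ, Finite ((𝟙_ T)⟦t⟧ ⟶ X ⊗ V) := fun t => by
    have := hsub t
    exact Finite.of_subsingleton
  have hone : ∀ t : ℤ, Nat.card ((𝟙_ T)⟦t⟧ ⟶ X ⊗ V) = 1 := fun t => by
    have := hsub t
    exact Nat.card_of_subsingleton 0
  cases hV with
  | one hC => omega
  | @succ h V V' i H x hx f hf j δ hΔ =>
    obtain ⟨hd, hfin⟩ := fin_down H h0 hp hlen hΔ hall
    have hp1 : (1 : ℤ) ≤ (p : ℤ) ^ n := one_le_pow₀ (by exact_mod_cast (by omega : 1 ≤ p))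
    obtain ⟨B, hB⟩ := bounded_step (a := fun t => Nat.card ((𝟙_ T)⟦t⟧ ⟶ X ⊗ V)) hd
      (fun t => by
        have := card_mid_of_tri hΔ X t ((fin_tw_iff _ X V t).2 (hfin _)) (hall t)
        rwa [card_tw, hone, mul_one] at this)
      (fun t => by
        have := card_left_of_tri hΔ X t (hfin t) (hall (t + 1))
        rwa [card_tw, hone, mul_one] at this)
    rw [s_succ] at hlen
    have := growth_up H X a b h0 hp (by omega) hfin 0 B (fun t => by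
      rw [pow_zero, pow_one]
      exact hB t)
    rwa [zero_add] at this

end Vale.Agent.P261.H89
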