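import Vale.Agent.P261.H80.Main
import Vale.Agent.P261.H89.Growth

/-!
# P261: the window theorem with the growth of the homotopy groups
-/

open CategoryTheory MonoidalCategory Limits Pretriangulated MonObj

set_option linter.unusedSectionVars false

noncomputable section

namespace Vale.Agent.P261.H89

open Vale.Agent.P251 Vale.Agent.P251.T Vale.Agent.P251.F Vale.Agent.P251.I
  Vale.Agent.P251.M Vale.Agent.P257.H314 Vale.Agent.P257.Main
open Vale.Agent.P251.S hiding IC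

open Vale.Agent.P251.St (SHCat Susp RingSp)
open Vale.Agent.P251.St.SHCat

lemma s_window (p n : ℕ) :
    s p (n + 1) = 1 + ∑ m ∈ Finset.range n, (2 * (p : ℤ) ^ (m + 1) - 1) :=
  P261.H80.sum_window p n

variable {T : SHCat} (S : Susp T) {p : ℕ} [Fact p.Prime] {n : ℕ}

/-- Growth of the homotopy groups, from the tower. -/
theorem growth_of (hp2 : p ≠ 2) (hn : 1 ≤ n)
    (hT : ∃ D : MUData T.C, MUUniv (M.lineIso S.toSpaceFunctor) D ∧
      ∃ (V : T.C) (i : 𝟙_ T.C ⟶ V), STow D p (n + 1) i)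
    {K : RingSp T} (hK : St.IsMorava S K p n) {X : T.C}
    (hX : ∀ W : T.C, St.Acyclic K.obj W → ∀ g : Hom W X, g = 0) (a : ℤ)
    (h0 : ∀ t : ℤ, a ≤ t → t < a + ∑ m ∈ Finset.range n, (2 * (p : ℤ) ^ (m + 1) - 1) →
      H631.FG p (Hom (St.sphere T t) X)) :
    ∃ C : ℕ, ∀ t : ℤ, Nat.card (Hom (St.sphere T t) X ⧸ (zsmulAddGroupHom (p : ℤ) :
      Hom (St.sphere T t) X →+ Hom (St.sphere T t) X).range) ≤
        p ^ (C * (1 + t.natAbs) ^ (n - 1)) := by
  obtain ⟨D, H, V, i, hV⟩ := hT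
  obtain ⟨_, o, h⟩ := P261.H80.exists_pos S hn hK
  have hp : 2 ≤ p := (Fact.out : p.Prime).two_le
  have h1 := P261.H80.acyclic_tower H hp2 hn hV o h
  have h2 := P261.H80.zero_of_local hV h1 (P261.H80.local_iff hX)
  obtain ⟨A, hA⟩ := growth hn hV X a
    (a + ∑ m ∈ Finset.range n, (2 * (p : ℤ) ^ (m + 1) - 1) - 1) (fun t h3 h4 => by
      have h5 := h0 t h3 (by omega)
      exact ⟨H180.cok_of_fg h5, H180.ker_of_fg h5⟩) hp (by rw [s_window]; omega) h2
  refine ⟨A, fun t => (hA t).trans ?_⟩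
  rw [pow_mul]
  refine Nat.pow_le_pow_left ?_ _
  exact (Nat.lt_two_pow_self).le.trans (Nat.pow_le_pow_left hp A)

/-- **Growth of the homotopy groups.** -/
theorem main_growth (hn : 1 ≤ n) (hpn : (11 ≤ p ∧ n ≤ 4) ∨ (p = 7 ∧ n ≤ 3))
    {K : RingSp T} (hK : St.IsMorava S K p n) {X : T.C}
    (hX : ∀ W : T.C, St.Acyclic K.obj W → ∀ g : Hom W X, g = 0) (a : ℤ)
    (h0 : ∀ t : ℤ, a ≤ t → t < a + ∑ m ∈ Finset.range n, (2 * (p : ℤ) ^ (m + 1) - 1) →
      H631.FG p (Hom (St.sphere T t) X)) :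
    ∃ C : ℕ, ∀ t : ℤ, Nat.card (Hom (St.sphere T t) X ⧸ (zsmulAddGroupHom (p : ℤ) :
      Hom (St.sphere T t) X →+ Hom (St.sphere T t) X).range) ≤
        p ^ (C * (1 + t.natAbs) ^ (n - 1)) := by
  rcases hpn with ⟨h11, hn4⟩ | ⟨h7, hn3⟩
  · obtain ⟨D, H, V, i, hV⟩ := P261.H80.exists_tower S h11
    obtain ⟨V', i', hV'⟩ := P261.H80.exists_stow hV (n + 1) (by omega) (by omega)
    exact growth_of S (by omega) hn ⟨D, H, V', i', hV'⟩ hK hX a h0
  · obtain ⟨D, H, V, i, hV⟩ := P261.H80.exists_tower_seven S h7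
    obtain ⟨V', i', hV'⟩ := P261.H80.exists_stow hV (n + 1) (by omega) (by omega)
    exact growth_of S (by omega) hn ⟨D, H, V', i', hV'⟩ hK hX a h0

end Vale.Agent.P261.H89
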