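import Vale.Agent.P257.H314.Assemble

/-!
# P261: window lemma

`down` : if the kernel and the cokernel of `p` on `π_t X` are finite for `a ≤ t ≤ b`, then
`π_t (X ⊗ V(h-1))` is finite for `a + s p h ≤ t ≤ b`.

`up` : if moreover `X ⊗ V(h-1) = 0` and `a + s p h ≤ b + 2`, then the cokernel of `p` on `π_t X` is
finite for all `t`.
-/

open CategoryTheory MonoidalCategory Limits Pretriangulated

universe v u

set_option linter.unusedSectionVars false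

namespace Vale.Agent.P261.H89

open Vale.Agent.P251 Vale.Agent.P251.T Vale.Agent.P251.M Vale.Agent.P251.S
open Vale.Agent.P251.M.EvenSpheres Vale.Agent.P257.H314

/-- the cokernel of `p` is finite -/
def Cok (p : ℕ) (A : Type*) [AddCommGroup A] : Prop :=
  Finite (A ⧸ (zsmulAddGroupHom (p : ℤ) : A →+ A).range)

/-- the kernel of `p` is finite -/
def Ker (p : ℕ) (A : Type*) [AddCommGroup A] : Prop := Finite {a : A // (p : ℤ) • a = 0}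

/-- the length of the window which is lost -/
def s (p h : ℕ) : ℤ := ∑ m ∈ Finset.range h, (2 * ((p : ℤ) ^ m - 1) + 1)

lemma s_succ (p h : ℕ) : s p (h + 1) = s p h + (2 * ((p : ℤ) ^ h - 1) + 1) := by
  rw [s, Finset.sum_range_succ]
  rfl

lemma s_one (p : ℕ) : s p 1 = 1 := by
  simp [s]

section algebra

variable {A B C : Type*} [AddCommGroup A] [AddCommGroup B] [AddCommGroup C]

/-- the middle term of an exact sequence is finite -/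
lemma fin_mid (f : A →+ B) (g : B →+ C) (hf : (Set.range f).Finite) (hg : (Set.range g).Finite)
    (h : ∀ b, g b = 0 → ∃ a, f a = b) : Finite B := by
  have h1 : (g ⁻¹' (Set.range g)).Finite := by
    refine hg.preimage' ?_
    rintro _ ⟨b, rfl⟩
    refine (hf.image (fun x => b + x)).subset ?_
    intro b' hb'
    have h2 : g (b' - b) = 0 := by
      rw [map_sub, sub_eq_zero]
      exact hb'
    obtain ⟨a, ha⟩ := h _ h2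
    refine ⟨f a, ⟨a, rfl⟩, ?_⟩
    change b + f a = b'
    rw [ha]
    abel
  have h2 : g ⁻¹' (Set.range g) = Set.univ := by
    ext b
    simp
  rw [h2] at h1
  exact Set.finite_univ_iff.1 h1

lemma range_finite_of_cok {p : ℕ} (f : A →+ B) (hA : Cok p A) (hf : ∀ a, f ((p : ℤ) • a) = 0) :
    (Set.range f).Finite := by
  have hA' : Finite (A ⧸ (zsmulAddGroupHom (p : ℤ) : A →+ A).range) := hA
  have hle : (zsmulAddGroupHom (p : ℤ) : A →+ A).range ≤ f.ker := by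
    rintro _ ⟨a, rfl⟩
    exact hf a
  refine (Set.finite_range (QuotientAddGroup.lift _ f hle)).subset ?_
  rintro _ ⟨a, rfl⟩
  exact ⟨(a : A ⧸ (zsmulAddGroupHom (p : ℤ) : A →+ A).range), rfl⟩

lemma range_finite_of_ker {p : ℕ} (g : B →+ C) (hC : Ker p C)
    (hg : ∀ b, (p : ℤ) • g b = 0) : (Set.range g).Finite := by
  have hC' : Finite {a : C // (p : ℤ) • a = 0} := hC
  refine (Set.finite_range (Subtype.val : {a : C // (p : ℤ) • a = 0} → C)).subset ?_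
  rintro _ ⟨b, rfl⟩
  exact ⟨⟨g b, hg b⟩, rfl⟩

lemma cok_of_exact {p : ℕ} (f : A →+ B) [Finite B] (h : ∀ a, f a = 0 → ∃ b, (p : ℤ) • b = a) :
    Cok p A := by
  have hle : f.ker ≤ (zsmulAddGroupHom (p : ℤ) : A →+ A).range := by
    intro a ha
    obtain ⟨b, hb⟩ := h a ha
    exact ⟨b, hb⟩
  have h1 : Finite (A ⧸ f.ker) := Finite.of_equiv _ (QuotientAddGroup.quotientKerEquivRange f).symm.toEquiv
  exact Finite.of_surjective (QuotientAddGroup.map f.ker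
    (zsmulAddGroupHom (p : ℤ) : A →+ A).range (AddMonoidHom.id A) hle) (by
      rintro ⟨a⟩
      exact ⟨(a : A ⧸ f.ker), rfl⟩)

lemma Ker.of_inj {p : ℕ} (f : A →+ B) (hf : Function.Injective f) (hB : Ker p B) : Ker p A := by
  have hB' : Finite {a : B // (p : ℤ) • a = 0} := hB
  refine Finite.of_injective (fun a : {a : A // (p : ℤ) • a = 0} =>
    (⟨f a.1, by rw [← map_zsmul, a.2, map_zero]⟩ : {a : B // (p : ℤ) • a = 0})) ?_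
  intro a b hab
  exact Subtype.ext (hf (congrArg Subtype.val hab))

end algebra

variable {T : Type u} [Category.{v} T] [Preadditive T] [HasZeroObject T]
    [HasShift T ℤ] [∀ n : ℤ, (shiftFunctor T n).Additive] [Pretriangulated T]
    [MonoidalCategory T] [SymmetricCategory T] [TensorTriangulated T]

/-- postcomposition -/
def post (W : T) {Y Z : T} (f : Y ⟶ Z) : (W ⟶ Y) →+ (W ⟶ Z) :=
  AddMonoidHom.mk' (fun g => g ≫ f) (fun a b => Preadditive.add_comp _ _ _ a b f)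

@[simp] lemma post_apply (W : T) {Y Z : T} (f : Y ⟶ Z) (g : W ⟶ Y) : post W f g = g ≫ f := rfl

/-- shifting -/
noncomputable def sh (W Y : T) {t m t' : ℤ} (h : t' + m = t) : (W⟦t'⟧ ⟶ Y) →+ (W⟦t⟧ ⟶ Y⟦m⟧) :=
  AddMonoidHom.mk' (fun g => ((shiftFunctorAdd' T t' m t h).app W).hom ≫ g⟦m⟧')
    (fun a b => by
      rw [Functor.map_add, Preadditive.comp_add])

lemma sh_bij (W Y : T) {t m t' : ℤ} (h : t' + m = t) : Function.Bijective (sh W Y h) := by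
  constructor
  · intro a b hab
    have h1 : ((shiftFunctorAdd' T t' m t h).app W).hom ≫ a⟦m⟧' =
      ((shiftFunctorAdd' T t' m t h).app W).hom ≫ b⟦m⟧' := hab
    rw [Iso.cancel_iso_hom_left] at h1
    exact (shiftFunctor T m).map_injective h1
  · intro g
    obtain ⟨g', hg'⟩ := (shiftFunctor T m).map_surjective
      (((shiftFunctorAdd' T t' m t h).app W).inv ≫ g)
    refine ⟨g', ?_⟩
    change ((shiftFunctorAdd' T t' m t h).app W).hom ≫ g'⟦m⟧' = g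
    rw [hg', Iso.hom_inv_id_assoc]

lemma fin_sh_iff (W Y : T) {t m t' : ℤ} (h : t' + m = t) :
    Finite (W⟦t⟧ ⟶ Y⟦m⟧) ↔ Finite (W⟦t'⟧ ⟶ Y) :=
  (Equiv.ofBijective _ (sh_bij W Y h)).finite_iff.symm

lemma fin_iso_iff (W : T) {Y Z : T} (e : Y ≅ Z) : Finite (W ⟶ Y) ↔ Finite (W ⟶ Z) :=
  (Equiv.mk (fun g => g ≫ e.hom) (fun g => g ≫ e.inv) (fun g => by simp)
    (fun g => by simp)).finite_iff

lemma ker_sh (W Y : T) {p : ℕ} {t m t' : ℤ} (h : t' + m = t) (hK : Ker p (W⟦t'⟧ ⟶ Y)) :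
    Ker p (W⟦t⟧ ⟶ Y⟦m⟧) := by
  let e := AddEquiv.ofBijective (sh W Y h) (sh_bij W Y h)
  exact Ker.of_inj e.symm.toAddMonoidHom e.symm.injective hK

/-- the triangle `A ⟶ B ⟶ C` tensored with `X`: exactness in homotopy -/
lemma fin_of_tri {A B C : T} {f : A ⟶ B} {g : B ⟶ C} {δ : C ⟶ A⟦(1 : ℤ)⟧}
    (hΔ : Triangle.mk f g δ ∈ distTriang T) (X : T) (t : ℤ)
    (h1 : Finite ((𝟙_ T)⟦t⟧ ⟶ X ⊗ B)) (h2 : Finite ((𝟙_ T)⟦t - 1⟧ ⟶ X ⊗ A)) :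
    Finite ((𝟙_ T)⟦t⟧ ⟶ X ⊗ C) := by
  have hX := TensorTriangulated.distinguished X _ hΔ
  set δ' : X ⊗ C ⟶ (X ⊗ A)⟦(1 : ℤ)⟧ := ((X ◁ δ) ≫ (X ◁ (TensorTriangulated.e A).inv) ≫
        (α_ X A ((𝟙_ T)⟦(1 : ℤ)⟧)).inv ≫ (TensorTriangulated.e (X ⊗ A)).hom) with hδ'
  have h3 : Finite ((𝟙_ T)⟦t⟧ ⟶ (X ⊗ A)⟦(1 : ℤ)⟧) := (fin_sh_iff _ _ (by ring)).2 h2
  refine fin_mid (post _ (X ◁ g)) (post _ δ') (Set.finite_range _) (Set.toFinite _) ?_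
  intro b hb
  obtain ⟨a, ha⟩ := Triangle.coyoneda_exact₃ _ hX b hb
  exact ⟨a, ha.symm⟩

/-- periodicity, one direction -/
lemma fin_mid_of_tri {A B C : T} {f : A ⟶ B} {g : B ⟶ C} {δ : C ⟶ A⟦(1 : ℤ)⟧}
    (hΔ : Triangle.mk f g δ ∈ distTriang T) (X : T) (t : ℤ)
    (h1 : Finite ((𝟙_ T)⟦t⟧ ⟶ X ⊗ A)) (h2 : Finite ((𝟙_ T)⟦t⟧ ⟶ X ⊗ C)) :
    Finite ((𝟙_ T)⟦t⟧ ⟶ X ⊗ B) := by
  have hX := TensorTriangulated.distinguished X _ hΔ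
  refine fin_mid (post _ (X ◁ f)) (post _ (X ◁ g)) (Set.finite_range _) (Set.toFinite _) ?_
  intro b hb
  obtain ⟨a, ha⟩ := Triangle.coyoneda_exact₂ _ hX b hb
  exact ⟨a, ha.symm⟩

/-- periodicity, the other direction -/
lemma fin_left_of_tri {A B C : T} {f : A ⟶ B} {g : B ⟶ C} {δ : C ⟶ A⟦(1 : ℤ)⟧}
    (hΔ : Triangle.mk f g δ ∈ distTriang T) (X : T) (t : ℤ)
    (h1 : Finite ((𝟙_ T)⟦t⟧ ⟶ X ⊗ B)) (h2 : Finite ((𝟙_ T)⟦t + 1⟧ ⟶ X ⊗ C)) :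
    Finite ((𝟙_ T)⟦t⟧ ⟶ X ⊗ A) := by
  have hX := TensorTriangulated.distinguished X _ hΔ
  set δ' : X ⊗ C ⟶ (X ⊗ A)⟦(1 : ℤ)⟧ := ((X ◁ δ) ≫ (X ◁ (TensorTriangulated.e A).inv) ≫
        (α_ X A ((𝟙_ T)⟦(1 : ℤ)⟧)).inv ≫ (TensorTriangulated.e (X ⊗ A)).hom) with hδ'
  have h3 : Finite ((𝟙_ T)⟦t + 1⟧ ⟶ (X ⊗ B)⟦(1 : ℤ)⟧) := (fin_sh_iff _ _ rfl).2 h1
  have h4 : Finite ((𝟙_ T)⟦t + 1⟧ ⟶ (X ⊗ A)⟦(1 : ℤ)⟧) := by
    refine fin_mid (post _ δ') (post _ ((X ◁ f)⟦(1 : ℤ)⟧')) (Set.finite_range _)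
      (Set.toFinite _) ?_
    intro b hb
    obtain ⟨a, ha⟩ := Triangle.coyoneda_exact₁ _ hX b hb
    exact ⟨a, ha.symm⟩
  exact (fin_sh_iff _ _ rfl).1 h4

/-- the bottom step -/
lemma fin_modp {C : T} {p : ℕ} {i : 𝟙_ T ⟶ C} {δ : C ⟶ (𝟙_ T)⟦(1 : ℤ)⟧}
    (hΔ : Triangle.mk ((p : ℤ) • 𝟙 (𝟙_ T)) i δ ∈ distTriang T) (X : T) (t : ℤ)
    (h1 : Cok p ((𝟙_ T)⟦t⟧ ⟶ X)) (h2 : Ker p ((𝟙_ T)⟦t - 1⟧ ⟶ X)) :
    Finite ((𝟙_ T)⟦t⟧ ⟶ X ⊗ C) := by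
  have hX := TensorTriangulated.distinguished X _ hΔ
  set δ' : X ⊗ C ⟶ (X ⊗ 𝟙_ T)⟦(1 : ℤ)⟧ := ((X ◁ δ) ≫ (X ◁ (TensorTriangulated.e (𝟙_ T)).inv) ≫
        (α_ X (𝟙_ T) ((𝟙_ T)⟦(1 : ℤ)⟧)).inv ≫ (TensorTriangulated.e (X ⊗ 𝟙_ T)).hom) with hδ'
  have hp : X ◁ ((p : ℤ) • 𝟙 (𝟙_ T)) = (p : ℤ) • 𝟙 (X ⊗ 𝟙_ T) := by
    have h1 : ((tensorLeft X).map ((p : ℤ) • 𝟙 (𝟙_ T))) = (p : ℤ) • (tensorLeft X).map (𝟙 (𝟙_ T)) :=
      Functor.map_zsmul _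
    simpa using h1
  have h3 : Ker p ((𝟙_ T)⟦t⟧ ⟶ (X ⊗ 𝟙_ T)⟦(1 : ℤ)⟧) := by
    refine ker_sh _ _ (t' := t - 1) (by ring) ?_
    exact Ker.of_inj (post _ (ρ_ X).hom) (fun a b hab => (cancel_mono (ρ_ X).hom).1 hab) h2
  have h4 : (X ◁ ((p : ℤ) • 𝟙 (𝟙_ T))) ≫ (X ◁ i) = 0 := comp_distTriang_mor_zero₁₂ _ hX
  have h5 : δ' ≫ (X ◁ ((p : ℤ) • 𝟙 (𝟙_ T)))⟦(1 : ℤ)⟧' = 0 := comp_distTriang_mor_zero₃₁ _ hX
  rw [hp] at h4 h5
  refine fin_mid (post _ ((ρ_ X).inv ≫ (X ◁ i))) (post _ δ')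
    (range_finite_of_cok _ h1 ?_) (range_finite_of_ker _ h3 ?_) ?_
  · intro a
    have h6 : (ρ_ X).inv ≫ ((p : ℤ) • 𝟙 (X ⊗ 𝟙_ T)) ≫ (X ◁ i) = 0 := by rw [h4, comp_zero]
    rw [post_apply]
    rw [Preadditive.zsmul_comp, Category.id_comp, Preadditive.comp_zsmul] at h6
    rw [Preadditive.zsmul_comp, ← Preadditive.comp_zsmul, h6, comp_zero]
  · intro b
    rw [Functor.map_zsmul, Preadditive.comp_zsmul, CategoryTheory.Functor.map_id,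
      Category.comp_id] at h5
    rw [post_apply, ← Preadditive.comp_zsmul, h5, comp_zero]
  · intro b hb
    obtain ⟨(a : (𝟙_ T)⟦t⟧ ⟶ X ⊗ 𝟙_ T), ha⟩ := Triangle.coyoneda_exact₃ _ hX b hb
    have ha' : b = a ≫ (X ◁ i) := ha
    refine ⟨a ≫ (ρ_ X).hom, ?_⟩
    rw [post_apply, Category.assoc, Iso.hom_inv_id_assoc, ha']

/-- from `X ⊗ S/p` to `X` -/
lemma cok_modp {C : T} {p : ℕ} {i : 𝟙_ T ⟶ C} {δ : C ⟶ (𝟙_ T)⟦(1 : ℤ)⟧}
    (hΔ : Triangle.mk ((p : ℤ) • 𝟙 (𝟙_ T)) i δ ∈ distTriang T) (X : T) (t : ℤ)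
    (h1 : Finite ((𝟙_ T)⟦t⟧ ⟶ X ⊗ C)) : Cok p ((𝟙_ T)⟦t⟧ ⟶ X) := by
  have hX := TensorTriangulated.distinguished X _ hΔ
  have hp : X ◁ ((p : ℤ) • 𝟙 (𝟙_ T)) = (p : ℤ) • 𝟙 (X ⊗ 𝟙_ T) := by
    have h1 : ((tensorLeft X).map ((p : ℤ) • 𝟙 (𝟙_ T))) = (p : ℤ) • (tensorLeft X).map (𝟙 (𝟙_ T)) :=
      Functor.map_zsmul _
    simpa using h1
  refine cok_of_exact (post _ ((ρ_ X).inv ≫ (X ◁ i))) ?_
  intro a ha
  have ha' : (a ≫ (ρ_ X).inv) ≫ (X ◁ i) = 0 := by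
    rw [Category.assoc]
    exact ha
  obtain ⟨(b : (𝟙_ T)⟦t⟧ ⟶ X ⊗ 𝟙_ T), hb⟩ :=
    Triangle.coyoneda_exact₂ _ hX (a ≫ (ρ_ X).inv) ha'
  refine ⟨b ≫ (ρ_ X).hom, ?_⟩
  have h2 : a ≫ (ρ_ X).inv = b ≫ (X ◁ ((p : ℤ) • 𝟙 (𝟙_ T))) := hb
  rw [hp, Preadditive.comp_zsmul, Category.comp_id] at h2
  rw [← Preadditive.zsmul_comp, ← h2, Category.assoc, Iso.inv_hom_id, Category.comp_id]

/-- periodicity: a window of length `d` suffices -/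
lemma all_of_window {P : ℤ → Prop} {d : ℤ} (hd : 1 ≤ d) (h1 : ∀ t, P (t - d) → P t)
    (h2 : ∀ t, P t → P (t - d)) {a : ℤ} (h : ∀ t, a ≤ t → t < a + d → P t) (t : ℤ) : P t := by
  have h3 : ∀ (k : ℕ) (t : ℤ), P t → P (t + k * d) := by
    intro k
    induction k with
    | zero => intro t ht; simpa using ht
    | succ k ih =>
      intro t ht
      apply h1
      have := ih t ht
      convert this using 1
      push_cast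
      ring
  have h4 : ∀ (k : ℕ) (t : ℤ), P t → P (t - k * d) := by
    intro k
    induction k with
    | zero => intro t ht; simpa using ht
    | succ k ih =>
      intro t ht
      have := h2 _ (ih t ht)
      convert this using 1
      push_cast
      ring
  have h5 : P (a + (t - a) % d) :=
    h _ (by have := Int.emod_nonneg (t - a) (show d ≠ 0 by omega); omega)
      (by have := Int.emod_lt_of_pos (t - a) (show 0 < d by omega); omega)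
  have h6 : (t - a) % d + d * ((t - a) / d) = t - a := Int.emod_add_mul_ediv (t - a) d
  rcases Int.le_total 0 ((t - a) / d) with h7 | h7
  · have h8 := h3 ((t - a) / d).toNat _ h5
    rw [Int.toNat_of_nonneg h7] at h8
    convert h8 using 1
    linarith
  · have h8 := h4 (-((t - a) / d)).toNat _ h5
    rw [Int.toNat_of_nonneg (by omega)] at h8
    convert h8 using 1
    linarith

variable [HasCoproducts.{0} T] {D : I.MUData T}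

lemma fin_tw_iff (N : ℤ) (X V : T) (t : ℤ) :
    Finite ((𝟙_ T)⟦t⟧ ⟶ X ⊗ ((stdEven T).S N ⊗ V)) ↔ Finite ((𝟙_ T)⟦t - 2 * N⟧ ⟶ X ⊗ V) := by
  rw [fin_iso_iff _ (twI N X V), fin_sh_iff _ _ (show (t - 2 * N) + 2 * N = t by ring)]

theorem down_le {p h : ℕ} {V : T} {i : 𝟙_ T ⟶ V} (hV : STow D p h i) (X : T) (a b : ℤ)
    (h0 : ∀ t, a ≤ t → t ≤ b → Cok p ((𝟙_ T)⟦t⟧ ⟶ X) ∧ Ker p ((𝟙_ T)⟦t⟧ ⟶ X)) (hp : 1 ≤ p) :
    ∀ t, a + s p h ≤ t → t ≤ b → Finite ((𝟙_ T)⟦t⟧ ⟶ X ⊗ V) := by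
  induction hV with
  | one hC =>
    intro t h1 h2
    rw [s_one] at h1
    exact fin_modp hC X t (h0 t (by omega) h2).1 (h0 (t - 1) (by omega) (by omega)).2
  | @succ h V V' i H x hx f hf j δ hΔ ih =>
    intro t h1 h2
    rw [s_succ] at h1
    have hp1 : (1 : ℤ) ≤ (p : ℤ) ^ h := one_le_pow₀ (by exact_mod_cast hp)
    refine fin_of_tri hΔ X t (ih t (by omega) h2) ?_
    rw [fin_tw_iff]
    exact ih _ (by omega) (by omega)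

theorem up_fin {p h : ℕ} {V : T} {i : 𝟙_ T ⟶ V} (hV : STow D p h i) (X : T) (a b : ℤ)
    (h0 : ∀ t, a ≤ t → t ≤ b → Cok p ((𝟙_ T)⟦t⟧ ⟶ X) ∧ Ker p ((𝟙_ T)⟦t⟧ ⟶ X)) (hp : 2 ≤ p)
    (hlen : a + s p h ≤ b + 2) (hall : ∀ t : ℤ, Finite ((𝟙_ T)⟦t⟧ ⟶ X ⊗ V)) :
    ∀ t : ℤ, Cok p ((𝟙_ T)⟦t⟧ ⟶ X) := by
  induction hV with
  | one hC => exact fun t => cok_modp hC X t (hall t)
  | @succ h V V' i H x hx f hf j δ hΔ ih =>
    have hh : 1 ≤ h := by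
      cases H <;> omega
    have hp1 : (2 : ℤ) ≤ (p : ℤ) ^ h := by
      calc (2 : ℤ) ≤ (p : ℤ) := by exact_mod_cast hp
        _ = (p : ℤ) ^ 1 := (pow_one _).symm
        _ ≤ (p : ℤ) ^ h := pow_le_pow_right₀ (by exact_mod_cast (by omega : 1 ≤ p)) hh
    rw [s_succ] at hlen
    refine ih (by omega) ?_
    have hwin := down_le H X a b h0 (by omega)
    refine all_of_window (P := fun t => Finite ((𝟙_ T)⟦t⟧ ⟶ X ⊗ V))
      (d := 2 * ((p : ℤ) ^ h - 1)) (a := a + s p h) (by omega) ?_ ?_ ?_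
    · intro t ht
      exact fin_mid_of_tri hΔ X t ((fin_tw_iff _ X V t).2 ht) (hall t)
    · intro t ht
      exact (fin_tw_iff _ X V t).1 (fin_left_of_tri hΔ X t ht (hall (t + 1)))
    · intro t h1 h2
      exact hwin t h1 (by omega)

variable {p : ℕ} [Fact p.Prime] {h : ℕ} {V : T} {i : 𝟙_ T ⟶ V}

/-- Down the tower: finiteness of `π_* (X ⊗ V(h-1))` in a window. -/
theorem down (hV : STow D p h i) (X : T) (a b : ℤ)
    (h0 : ∀ t : ℤ, a ≤ t → t ≤ b → Cok p ((𝟙_ T)⟦t⟧ ⟶ X) ∧ Ker p ((𝟙_ T)⟦t⟧ ⟶ X)) :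
    ∀ t : ℤ, a + s p h ≤ t → t ≤ b → Finite ((𝟙_ T)⟦t⟧ ⟶ X ⊗ V) :=
  down_le hV X a b h0 (Fact.out : p.Prime).one_le

/-- Up the tower: if `X ⊗ V(h-1) = 0`, a window suffices. -/
theorem up (hV : STow D p h i) (X : T) (a b : ℤ)
    (h0 : ∀ t : ℤ, a ≤ t → t ≤ b → Cok p ((𝟙_ T)⟦t⟧ ⟶ X) ∧ Ker p ((𝟙_ T)⟦t⟧ ⟶ X))
    (hlen : a + s p h ≤ b + 2) (hV0 : IsZero (X ⊗ V)) :
    ∀ t : ℤ, Cok p ((𝟙_ T)⟦t⟧ ⟶ X) :=
  up_fin hV X a b h0 (Fact.out : p.Prime).two_le hlen fun t => by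
    have : Subsingleton ((𝟙_ T)⟦t⟧ ⟶ X ⊗ V) := ⟨fun _ _ => hV0.eq_of_tgt _ _⟩
    exact Finite.of_subsingleton

end Vale.Agent.P261.H89
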